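import Vale.Agent.P267.H399.Calc
import Vale.Agent.P267.Statement

/-!
# P267 / H451: the line bundle of an effective divisor, interface
-/

open scoped Manifold ContDiff ComplexConjugate Matrix
open Set Filter Topology

noncomputable section

namespace Vale.Agent.P267.H451

open Vale.Agent.P267 Vale.Agent.P267.FL

variable {X : Type*} [TopologicalSpace X] [ChartedSpace C2 X]

/-- The holomorphic line bundle `𝒪(D)` of the effective divisor `D` as a projector line bundle with
holomorphic structure `a`, its canonical section `s` and the local holomorphic frames `v x` on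
`D.U x` with `s = D.f x • v x`. -/
structure DivLB (D : EffDiv X) (ι : Type) [Fintype ι] [DecidableEq ι] where
  L : LB X ι
  a : X → Fin 2 → ℂ
  hol : L.IsHol a
  s : X → EuclideanSpace ℂ ι
  s_reg : Reg0 ∞ 0 s
  s_sec : L.Sec s
  s_hol : ∀ x i, L.db0 a 0 s x i = 0
  v : X → X → EuclideanSpace ℂ ι
  v_reg : ∀ x, ∀ y ∈ D.U x, ∀ e ∈ atlas C2 X, y ∈ e.source →
    ContDiffAt ℝ ∞ (fun z => v x (e.symm z)) (e y)
  v_ne : ∀ x, ∀ y ∈ D.U x, v x y ≠ 0
  v_sec : ∀ x, ∀ y ∈ D.U x, LB.act (L.P y) (v x y) = v x y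
  v_hol : ∀ x, ∀ y ∈ D.U x, ∀ i, L.db0 a 0 (v x) y i = 0
  s_eq : ∀ x, ∀ y ∈ D.U x, s y = D.f x y • v x y

end Vale.Agent.P267.H451
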