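import Vale.Agent.P267.H451.Glue
import Vale.Agent.P267.H451.DivDefs
import Vale.Agent.P267.H399.Calc3

/-!
# P267 / H451: the line bundle of an effective divisor, existence
-/

set_option linter.unusedVariables false
set_option linter.unusedSectionVars false

open scoped Manifold ContDiff ComplexConjugate Matrix
open Set Filter Topology

noncomputable section

namespace Vale.Agent.P267.H451

open Vale.Agent.P267 Vale.Agent.P267.FL

variable {X : Type*} [TopologicalSpace X] [ChartedSpace C2 X]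

/-! ### transition functions of a divisor -/

/-- transition function: `f x = g x x' * f x'` -/
def trf (D : EffDiv X) (x x' : X) : X → ℂ := (D.change x x').choose

theorem trf_ne (D : EffDiv X) {x x' y : X} (hy : y ∈ D.U x) (hy' : y ∈ D.U x') :
    trf D x x' y ≠ 0 := ((D.change x x').choose_spec.2 y ⟨hy, hy'⟩).1

theorem trf_eq (D : EffDiv X) {x x' y : X} (hy : y ∈ D.U x) (hy' : y ∈ D.U x') :
    D.f x y = trf D x x' y * D.f x' y := ((D.change x x').choose_spec.2 y ⟨hy, hy'⟩).2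

section

variable [IsManifold 𝓘(ℂ, C2) ω X]

theorem hol_of_mdiff {f : X → ℂ} {U : Set X} (hU : IsOpen U)
    (hf : MDifferentiableOn 𝓘(ℂ, C2) 𝓘(ℂ) f U) {y : X} (hy : y ∈ U) : Hol f y := by
  have h := ((holOn_zero_iff_mdifferentiableOn hU).2 hf).holAt hU hy
  unfold HolAt at h
  rw [LB.loc0_zero] at h
  exact h

theorem trf_hol (D : EffDiv X) {x x' y : X} (hy : y ∈ D.U x) (hy' : y ∈ D.U x') :
    Hol (trf D x x') y :=
  hol_of_mdiff ((D.isOpen x).inter (D.isOpen x')) (D.change x x').choose_spec.1 ⟨hy, hy'⟩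

theorem divf_hol (D : EffDiv X) {x y : X} (hy : y ∈ D.U x) : Hol (D.f x) y :=
  hol_of_mdiff (D.isOpen x) (D.holo x) hy

/-- two continuous functions which agree frequently near `y` agree at `y` -/
theorem eq_of_frequently {f g : X → ℂ} {y : X} (hf : ContinuousAt f y) (hg : ContinuousAt g y)
    (h : ∃ᶠ z in 𝓝 y, f z = g z) : f y = g y := by
  by_contra hne
  have h1 : ∀ᶠ z in 𝓝 y, f z - g z ≠ 0 := (hf.sub hg).eventually_ne (sub_ne_zero.2 hne)
  exact h (h1.mono fun z hz hz' => hz (sub_eq_zero.2 hz'))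

/-- cocycle relation -/
theorem trf_cocycle (D : EffDiv X) {x x' x'' y : X} (hy : y ∈ D.U x) (hy' : y ∈ D.U x')
    (hy'' : y ∈ D.U x'') : trf D x x'' y = trf D x x' y * trf D x' x'' y := by
  refine eq_of_frequently (trf_hol D hy hy'').sm.continuousAt
    ((trf_hol D hy hy').sm.continuousAt.mul (trf_hol D hy' hy'').sm.continuousAt) ?_
  have h1 := D.ne x'' y hy''
  have h2 : ∀ᶠ z in 𝓝 y, z ∈ D.U x ∧ z ∈ D.U x' ∧ z ∈ D.U x'' := by
    filter_upwards [(D.isOpen x).mem_nhds hy, (D.isOpen x').mem_nhds hy',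
      (D.isOpen x'').mem_nhds hy''] with z h1 h2 h3
    exact ⟨h1, h2, h3⟩
  refine (h1.and_eventually h2).mono ?_
  rintro z ⟨hz, hz1, hz2, hz3⟩
  have e1 := trf_eq D hz1 hz3
  have e2 := trf_eq D hz1 hz2
  have e3 := trf_eq D hz2 hz3
  rw [e2, e3, ← mul_assoc] at e1
  exact (mul_right_cancel₀ hz e1).symm

/-! ### partition of unity -/

/-- finitely many of the sets `D.U x` with smooth functions -/
structure PU (D : EffDiv X) (N : ℕ) where
  pt : Fin N → X
  ψ : Fin N → X → ℂ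
  sm : ∀ i y, Sm (ψ i) y
  supp : ∀ i, tsupport (ψ i) ⊆ D.U (pt i)
  ex : ∀ y, ∃ i, ψ i y ≠ 0

theorem exists_PU [CompactSpace X] [T2Space X] (D : EffDiv X) : ∃ N : ℕ, Nonempty (PU D N) := by
  classical
  have : IsManifold 𝓘(ℝ, C2) ∞ X := isManifold_real' (X := X) ∞
  obtain ⟨t, ht⟩ := CompactSpace.elim_nhds_subcover (fun x => D.U x)
    (fun x => (D.isOpen x).mem_nhds (D.mem x))
  set pt : Fin t.card → X := fun i => (t.equivFin.symm i : X) with hpt
  have hcov : (univ : Set X) ⊆ ⋃ i, D.U (pt i) := by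
    intro y _
    have hy : y ∈ (⊤ : Set X) := mem_univ y
    rw [← ht] at hy
    obtain ⟨x, hx⟩ := mem_iUnion.1 hy
    obtain ⟨hxt, hyx⟩ := mem_iUnion.1 hx
    refine mem_iUnion.2 ⟨t.equivFin ⟨x, hxt⟩, ?_⟩
    simp only [hpt, Equiv.symm_apply_apply]
    exact hyx
  obtain ⟨f, hf⟩ := SmoothPartitionOfUnity.exists_isSubordinate 𝓘(ℝ, C2) (isClosed_univ (X := X))
    (fun i => D.U (pt i)) (fun i => D.isOpen (pt i)) hcov
  refine ⟨t.card, ⟨⟨pt, fun i y => ((f i y : ℝ) : ℂ), fun i y => ?_, fun i => ?_, fun y => ?_⟩⟩⟩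
  · have h1 : ContMDiff 𝓘(ℝ, C2) 𝓘(ℝ, ℂ) ∞ (fun y => ((f i y : ℝ) : ℂ)) :=
      (Complex.ofRealCLM.contDiff (n := ∞)).contMDiff.comp (f i).contMDiff
    exact sm_of_reg0 (contMDiff_iff_reg0.1 h1) y
  · refine Subset.trans ?_ (hf i)
    refine closure_mono ?_
    intro y hy h0
    exact hy (by simp only [h0, Complex.ofReal_zero])
  · obtain ⟨i, hi⟩ := f.exists_pos_of_mem (mem_univ y)
    exact ⟨i, by exact_mod_cast hi.ne'⟩

/-! ### the line bundle -/

variable {D : EffDiv X} {N : ℕ} (p : PU D N)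

/-- the frames -/
def PU.v (x y : X) : EuclideanSpace ℂ (Fin N) :=
  WithLp.toLp 2 fun i => p.ψ i y * trf D (p.pt i) x y

theorem PU.v_sm {x y : X} (hy : y ∈ D.U x) : Sm (p.v x) y := by
  rw [sm_euclid]
  intro i
  by_cases h : y ∈ D.U (p.pt i)
  · exact (p.sm i y).mul (trf_hol D h hy).sm
  · have h1 : (fun z => p.v x z i) =ᶠ[𝓝 y] fun _ => (0 : ℂ) := by
      have h2 : y ∉ tsupport (p.ψ i) := fun h' => h (p.supp i h')
      filter_upwards [(isClosed_tsupport (p.ψ i)).isOpen_compl.mem_nhds h2] with z hz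
      have h3 : p.ψ i z = 0 := image_eq_zero_of_notMem_tsupport hz
      change p.ψ i z * _ = 0
      rw [h3, zero_mul]
    exact (Sm.const (0 : ℂ)).congr h1

theorem PU.mem_of_ne {i : Fin N} {y : X} (h : p.ψ i y ≠ 0) : y ∈ D.U (p.pt i) :=
  p.supp i (subset_tsupport _ h)

theorem PU.v_ne {x y : X} (hy : y ∈ D.U x) : p.v x y ≠ 0 := by
  obtain ⟨i, hi⟩ := p.ex y
  intro h
  have h1 : p.v x y i = 0 := by rw [h]; rfl
  have h2 : p.v x y i = p.ψ i y * trf D (p.pt i) x y := rfl
  rw [h2] at h1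
  exact mul_ne_zero hi (trf_ne D (p.mem_of_ne hi) hy) h1

theorem PU.v_change {x x' y : X} (hy : y ∈ D.U x) (hy' : y ∈ D.U x') :
    p.v x y = trf D x' x y • p.v x' y := by
  ext i
  change p.ψ i y * trf D (p.pt i) x y = trf D x' x y * (p.ψ i y * trf D (p.pt i) x' y)
  by_cases hi : p.ψ i y = 0
  · rw [hi]; ring
  · rw [trf_cocycle D (p.mem_of_ne hi) hy' hy]
    ring

/-- the gluing data -/
def PU.glue : GlueData X (Fin N) X where
  U := D.U
  v := p.v
  isOpen := D.isOpen
  cover x := ⟨x, D.mem x⟩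
  sm x y hy := p.v_sm hy
  ne x y hy := p.v_ne hy
  change x x' := ⟨trf D x' x, fun y hy => ⟨trf_hol D hy.2 hy.1, p.v_change hy.1 hy.2⟩⟩

/-- the canonical section -/
def PU.s (y : X) : EuclideanSpace ℂ (Fin N) := D.f y y • p.v y y

theorem PU.s_eq {x y : X} (hy : y ∈ D.U x) : p.s y = D.f x y • p.v x y := by
  unfold PU.s
  rw [p.v_change (D.mem y) hy, smul_smul, trf_eq D hy (D.mem y), mul_comm]

/-- The line bundle of an effective divisor, from a partition of unity. -/
def PU.divLB : DivLB D (Fin N) where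
  L := p.glue.L
  a := p.glue.a
  hol := isHol_of_frames fun x => ⟨p.v x, D.U x, D.isOpen x, D.mem x, fun y hy =>
    p.glue.frameAt (β := x) hy⟩
  s := p.s
  s_reg := by
    refine reg0_of_sm fun x => ?_
    refine ((divf_hol D (D.mem x)).sm.smul (p.v_sm (D.mem x))).congr ?_
    filter_upwards [(D.isOpen x).mem_nhds (D.mem x)] with y hy
    exact p.s_eq hy
  s_sec := by
    intro x
    have h := (p.glue.frameAt (β := x) (D.mem x)).sec
    have h' : LB.act (p.glue.L.P x) (p.v x x) = p.v x x := h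
    have h2 : LB.act (p.glue.L.P x) (D.f x x • p.v x x) =
        D.f x x • LB.act (p.glue.L.P x) (p.v x x) := by
      ext k
      simp only [LB.act, PiLp.smul_apply, WithLp.ofLp_smul, Matrix.mulVec_smul, Pi.smul_apply]
    change LB.act (p.glue.L.P x) (D.f x x • p.v x x) = D.f x x • p.v x x
    rw [h2, h']
  s_hol := by
    intro x i
    have h1 : p.s =ᶠ[𝓝 x] fun z => D.f x z • p.v x z := by
      filter_upwards [(D.isOpen x).mem_nhds (D.mem x)] with y hy
      exact p.s_eq hy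
    rw [db0_congr h1]
    exact (p.glue.frameAt (β := x) (D.mem x)).db0_smul (divf_hol D (D.mem x)) i
  v := p.v
  v_reg := fun x y hy e he hye => (p.v_sm hy).chart he hye
  v_ne := fun x y hy => p.v_ne hy
  v_sec := fun x y hy => (p.glue.frameAt (β := x) hy).sec
  v_hol := fun x y hy i => (p.glue.frameAt (β := x) hy).hol i
  s_eq := fun x y hy => p.s_eq hy

end

/-- **The line bundle of an effective divisor** on a compact surface. -/
theorem exists_divLB [IsManifold 𝓘(ℂ, C2) ω X] [CompactSpace X] [T2Space X] (D : EffDiv X) :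
    ∃ N : ℕ, Nonempty (DivLB D (Fin N)) := by
  obtain ⟨N, ⟨p⟩⟩ := exists_PU D
  exact ⟨N, ⟨p.divLB⟩⟩

/-- the frames of a `DivLB` -/
theorem DivLB.frameAt {D : EffDiv X} {ι : Type} [Fintype ι] [DecidableEq ι] (B : DivLB D ι)
    {x y : X} (hy : y ∈ D.U x) : FrameAt B.L B.a (B.v x) y :=
  ⟨B.v_reg x y hy (chartAt C2 y) (chart_mem_atlas C2 y) (mem_chart_source C2 y),
    B.v_ne x y hy, B.v_sec x y hy, B.v_hol x y hy⟩

end Vale.Agent.P267.H451
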