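import Vale.Agent.P267.Statement
import Vale.Agent.P267.H451.DivLB
import Vale.Agent.P272.K.INT.Global

/-!
# P267 / H451: metrics of the line bundle of an effective divisor

For a metric `h` of the divisor `D` the Chern form `chH D h` (coefficients in the charts) is a smooth
closed `(1,1)`-form; the Chern forms of two metrics differ by `∂∂̄` of a function. So the
self-intersection number exists and does not depend on the metric.
-/

set_option linter.unusedVariables false
set_option linter.unusedSectionVars false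

open scoped Manifold ContDiff Topology
open Set Filter Vale.Agent.P272.K Vale.Agent.P272.K.INT

noncomputable section

namespace Vale.Agent.P267.H451

open Vale.Agent.P267

variable {X : Type*} [TopologicalSpace X] [ChartedSpace (Cm 2) X]

/-- `∂∂̄ log h` in the charts -/
def chH (h : X → X → ℝ) (e : Chart 2 X) (z : Cm 2) : Matrix (Fin 2) (Fin 2) ℂ :=
  cHess (fun w => Real.log (h (e.symm z) (e.symm w))) z

variable {D : EffDiv X} {h h' : X → X → ℝ}

theorem IsMetric.continuousAt (hh : D.IsMetric h) {x y : X} (hy : y ∈ D.U x) :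
    ContinuousAt (h x) y := by
  set e := chartAt (Cm 2) y with he
  have hs : y ∈ e.source := mem_chart_source _ y
  have h1 : ContinuousAt (fun z => h x (e.symm z)) (e y) :=
    (hh.smooth x y hy e ⟨chart_mem_atlas _ y, hs⟩).continuousAt
  have h2 : ContinuousAt (fun w => h x (e.symm (e w))) y :=
    ContinuousAt.comp (g := fun z => h x (e.symm z)) (f := e) h1 (e.continuousAt hs)
  refine h2.congr ?_
  filter_upwards [e.open_source.mem_nhds hs] with w hw
  rw [e.left_inv hw]

variable [IsManifold 𝓘(ℂ, Cm 2) ω X]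

/-- two metrics at the same point -/
theorem IsMetric.ratio (hh : D.IsMetric h) {x x' y : X} (hy : y ∈ D.U x) (hy' : y ∈ D.U x') :
    h x' y = ‖trf D x x' y‖ ^ 2 * h x y := by
  by_contra hne
  have hc : ContinuousAt (fun z => h x' z - ‖trf D x x' z‖ ^ 2 * h x z) y :=
    (IsMetric.continuousAt hh hy').sub
      (((trf_hol D hy hy').sm.continuousAt.norm.pow 2).mul (IsMetric.continuousAt hh hy))
  have h1 : ∀ᶠ z in 𝓝 y, h x' z - ‖trf D x x' z‖ ^ 2 * h x z ≠ 0 :=
    hc.eventually_ne (sub_ne_zero.2 hne)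
  have h2 : ∀ᶠ z in 𝓝 y, z ∈ D.U x ∧ z ∈ D.U x' := by
    filter_upwards [(D.isOpen x).mem_nhds hy, (D.isOpen x').mem_nhds hy'] with z h1 h2
    exact ⟨h1, h2⟩
  refine ((D.ne x' y hy').and_eventually (h1.and h2)).exists.elim ?_
  rintro z ⟨hz, hz1, hz2, hz3⟩
  apply hz1
  have e1 := hh.change x x' z ⟨hz2, hz3⟩
  rw [trf_eq D hz2 hz3, norm_mul, mul_pow] at e1
  have h0 : ‖D.f x' z‖ ^ 2 ≠ 0 := by
    have := norm_pos_iff.2 hz
    positivity
  have e2 : ‖D.f x' z‖ ^ 2 * (h x' z - ‖trf D x x' z‖ ^ 2 * h x z) = 0 := by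
    linear_combination -e1
  exact (mul_eq_zero.1 e2).resolve_left h0

theorem trf_contDiffAt {x x' y : X} (hy : y ∈ D.U x) (hy' : y ∈ D.U x') {e : Chart 2 X}
    (he : At e y) : ContDiffAt ℂ ω (fun z => trf D x x' (e.symm z)) (e y) :=
  ((trf_hol D hy hy').chart he.1 he.2).contDiffAt

theorem IsMetric.log_contDiffAt (hh : D.IsMetric h) {x y : X} (hy : y ∈ D.U x) {e : Chart 2 X}
    (he : At e y) : ContDiffAt ℝ ∞ (fun z => Real.log (h x (e.symm z))) (e y) := by
  refine (hh.smooth x y hy e he).log ?_
  rw [e.left_inv he.2]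
  exact (hh.pos x y hy).ne'

theorem chH_eq (hh : D.IsMetric h) {x y : X} (hy : y ∈ D.U x) {e : Chart 2 X} (he : At e y) :
    chH h e (e y) = cHess (fun w => Real.log (h x (e.symm w))) (e y) := by
  unfold chH
  rw [he.left_inv]
  have hcont := e.continuousAt_symm (e.map_source he.2)
  have hev : ∀ᶠ w in 𝓝 (e y), e.symm w ∈ D.U x ∧ e.symm w ∈ D.U y := by
    refine hcont.eventually (p := fun z => z ∈ D.U x ∧ z ∈ D.U y) ?_
    rw [e.left_inv he.2]
    filter_upwards [(D.isOpen x).mem_nhds hy, (D.isOpen y).mem_nhds (D.mem y)] with z h1 h2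
    exact ⟨h1, h2⟩
  have h1 : (fun w => Real.log (h y (e.symm w))) =ᶠ[𝓝 (e y)]
      fun w => Real.log (‖trf D x y (e.symm w)‖ ^ 2) + Real.log (h x (e.symm w)) := by
    filter_upwards [hev] with w hw
    rw [IsMetric.ratio hh hw.1 hw.2, Real.log_mul]
    · have := norm_pos_iff.2 (trf_ne D hw.1 hw.2)
      positivity
    · exact (hh.pos x _ hw.1).ne'
  have h2 : ContDiffAt ℂ ω (fun z => trf D x y (e.symm z)) (e y) :=
    trf_contDiffAt hy (D.mem y) he
  have h0 : trf D x y (e.symm (e y)) ≠ 0 := by
    rw [e.left_inv he.2]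
    exact trf_ne D hy (D.mem y)
  have h3 : ContDiffAt ℝ 2 (fun w => Real.log (‖trf D x y (e.symm w)‖ ^ 2)) (e y) := by
    have hd : ContDiffAt ℝ 2 (fun w => trf D x y (e.symm w)) (e y) :=
      (h2.restrict_scalars ℝ).of_le le_top
    exact (hd.norm_sq ℝ).log (pow_ne_zero 2 (norm_ne_zero_iff.2 h0))
  have h4 : ContDiffAt ℝ 2 (fun w => Real.log (h x (e.symm w))) (e y) :=
    (IsMetric.log_contDiffAt hh hy he).of_le two_le_inf
  rw [cHess_congr h1, cHess_add h3 h4, cHess_log_norm_sq h2 h0, zero_add]

theorem chH_ev (hh : D.IsMetric h) {x y : X} (hy : y ∈ D.U x) {e : Chart 2 X} (he : At e y) :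
    chH h e =ᶠ[𝓝 (e y)] cHess (fun w => Real.log (h x (e.symm w))) := by
  have hcont := e.continuousAt_symm (e.map_source he.2)
  have hev : ∀ᶠ w in 𝓝 (e y), e.symm w ∈ D.U x := by
    refine hcont.eventually ?_
    rw [e.left_inv he.2]
    exact (D.isOpen x).mem_nhds hy
  filter_upwards [hev, he.nhds_target] with w hw hw'
  have := chH_eq hh hw (At.of_target he.1 hw')
  rwa [e.right_inv hw'] at this

theorem isClosedForm_chH (hh : D.IsMetric h) : IsClosedForm (chH h) where
  smooth e x he i j := by
    refine (smooth_cHess (IsMetric.log_contDiffAt hh (D.mem x) he) i j).congr_of_eventuallyEq ?_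
    filter_upwards [chH_ev hh (D.mem x) he] with w hw
    rw [hw]
  form := by
    intro e e' x he he'
    rw [chH_eq hh (D.mem x) he, chH_eq hh (D.mem x) he']
    have h1 : (fun y => Real.log (h x (e.symm y))) =ᶠ[𝓝 (e x)]
        fun y => Real.log (h x (e'.symm (e' (e.symm y)))) := by
      filter_upwards [he.nhds_at he'] with z hz
      rw [hz.2.2.left_inv]
    have h2 : e' (e.symm (e x)) = e' x := by rw [he.left_inv]
    rw [cHess_congr h1]
    have := cHess_comp (τ := fun z => e' (e.symm z)) (f := fun y => Real.log (h x (e'.symm y)))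
      (z := e x) (by
        rw [h2]
        exact (IsMetric.log_contDiffAt hh (D.mem x) he').of_le two_le_inf) (transition he he')
    rw [h2] at this
    exact this
  closed e x he i k l := by
    have hev := chH_ev hh (D.mem x) he
    have h1 := cHess_closed (IsMetric.log_contDiffAt hh (D.mem x) he) i k l
    have e1 : (fun z => chH h e z k l) =ᶠ[𝓝 (e x)]
        fun z => cHess (fun w => Real.log (h x (e.symm w))) z k l := by
      filter_upwards [hev] with w hw
      rw [hw]
    have e2 : (fun z => chH h e z i l) =ᶠ[𝓝 (e x)]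
        fun z => cHess (fun w => Real.log (h x (e.symm w))) z i l := by
      filter_upwards [hev] with w hw
      rw [hw]
    rw [INT.dz_congr e1, INT.dz_congr e2]
    exact h1

/-- the Chern forms of two metrics differ by `∂∂̄` of a function -/
theorem exists_metric_diff (hh : D.IsMetric h) (hh' : D.IsMetric h') :
    ∃ u : X → ℝ, SmoothFn (n := 2) u ∧ ∀ e x, At e x →
      chH h e (e x) = chH h' e (e x) + cHess (fun y => u (e.symm y)) (e x) := by
  set u : X → ℝ := fun y => Real.log (h y y) - Real.log (h' y y) with hu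
  have key : ∀ x, ∀ y ∈ D.U x, u y = Real.log (h x y) - Real.log (h' x y) := by
    intro x y hy
    have h1 := IsMetric.ratio hh hy (D.mem y)
    have h2 := IsMetric.ratio hh' hy (D.mem y)
    have h0 : ‖trf D x y y‖ ^ 2 ≠ 0 := by
      have := norm_pos_iff.2 (trf_ne D hy (D.mem y))
      positivity
    simp only [hu]
    rw [h1, h2, Real.log_mul h0 (hh.pos x y hy).ne', Real.log_mul h0 (hh'.pos x y hy).ne']
    ring
  have hev : ∀ (e : Chart 2 X) x, At e x → (fun y => u (e.symm y)) =ᶠ[𝓝 (e x)] fun y =>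
      Real.log (h x (e.symm y)) - Real.log (h' x (e.symm y)) := by
    intro e x he
    have hcont := e.continuousAt_symm (e.map_source he.2)
    have hev : ∀ᶠ w in 𝓝 (e x), e.symm w ∈ D.U x := by
      refine hcont.eventually ?_
      rw [e.left_inv he.2]
      exact (D.isOpen x).mem_nhds (D.mem x)
    filter_upwards [hev] with w hw
    exact key x _ hw
  refine ⟨u, fun e x he => ?_, fun e x he => ?_⟩
  · exact ((IsMetric.log_contDiffAt hh (D.mem x) he).sub
      (IsMetric.log_contDiffAt hh' (D.mem x) he)).congr_of_eventuallyEq (hev e x he)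
  · rw [chH_eq hh (D.mem x) he, chH_eq hh' (D.mem x) he, cHess_congr (hev e x he),
      cHess_sub ((IsMetric.log_contDiffAt hh (D.mem x) he).of_le two_le_inf)
        ((IsMetric.log_contDiffAt hh' (D.mem x) he).of_le two_le_inf)]
    abel

/-- density of `c₁ ∧ c₁` -/
theorem isDensity_c1 (hh : D.IsMetric h) :
    IsDensity fun (e : Chart 2 X) (z : Cm 2) => 2 / Real.pi ^ 2 * (chH h e z).det.re :=
  (isClosedForm_chH hh).isDensity.const_mul _

variable [T2Space X] [CompactSpace X]

/-- the self-intersection number computed with a given metric -/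
def dsq (h : X → X → ℝ) : ℝ := intX fun (e : Chart 2 X) (z : Cm 2) =>
  2 / Real.pi ^ 2 * (chH h e z).det.re

theorem dsq_eq (hh : D.IsMetric h) (hh' : D.IsMetric h') : dsq h = dsq h' := by
  unfold dsq
  rw [intX_const_mul, intX_const_mul]
  congr 1
  obtain ⟨u, hu, hd⟩ := exists_metric_diff hh hh'
  rw [← intX_det_add_cHess (isClosedForm_chH hh') hu]
  refine intX_congr fun e x he => ?_
  rw [hd e x he]

/-- the self-intersection number, computed with any metric -/
theorem selfInt_iff (hh : D.IsMetric h) {d : ℝ} : D.SelfInt d ↔ dsq h = d := by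
  constructor
  · rintro ⟨h', hh', hi⟩
    rw [dsq_eq hh hh']
    exact intX_eq_of_isIntegral hi
  · intro hd
    refine ⟨h, hh, ?_⟩
    rw [← hd]
    exact (isDensity_c1 hh).isIntegral

theorem selfInt_unique {d d' : ℝ} (hd : D.SelfInt d) (hd' : D.SelfInt d') : d = d' := by
  obtain ⟨h, hh, hi⟩ := hd
  have h1 := (selfInt_iff hh).1 ⟨h, hh, hi⟩
  have h2 := (selfInt_iff hh).1 hd'
  rw [← h1, ← h2]

end Vale.Agent.P267.H451
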