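import Vale.Agent.P267.H451.Metric
import Vale.Agent.P267.H928.Int.FL

/-!
# P267 / H451: the self-intersection number and the Chern form of the line bundle
-/

set_option linter.unusedVariables false
set_option linter.unusedSectionVars false

open scoped Manifold ContDiff Topology ComplexConjugate
open Set Filter MeasureTheory

noncomputable section

namespace Vale.Agent.P267.H451

open Vale.Agent.P267 Vale.Agent.P267.FL

variable {X : Type*} [TopologicalSpace X] [ChartedSpace C2 X]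

theorem dz_eq_K (j : Fin 2) (f : C2 → ℂ) (z : C2) : P272.K.dz j f z = FL.dz j f z := by
  unfold P272.K.dz FL.dz
  simp only [smul_eq_mul]
  ring

theorem dzb_eq_K (j : Fin 2) (f : C2 → ℂ) (z : C2) : P272.K.dzb j f z = FL.dzb j f z := by
  unfold P272.K.dzb FL.dzb
  simp only [smul_eq_mul]
  ring

theorem jacM_eq_K (e e' : Ch X) (x : X) : P272.K.jacM e e' x = FL.jacM e e' x := by
  ext p i
  exact dz_eq_K i _ _

theorem cHess_eq_K (u : C2 → ℝ) (z : C2) (i j : Fin 2) :
    P272.K.cHess u z i j = FL.dz i (FL.dzb j fun y => ((u y : ℝ) : ℂ)) z := by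
  have h : (P272.K.dzb j fun y => ((u y : ℝ) : ℂ)) = FL.dzb j fun y => ((u y : ℝ) : ℂ) := by
    funext w
    exact dzb_eq_K j _ w
  change P272.K.dz i (P272.K.dzb j fun y => ((u y : ℝ) : ℂ)) z = _
  rw [dz_eq_K, h]

theorem det_im_zero {M : Matrix (Fin 2) (Fin 2) ℂ} (h : M.IsHermitian) :
    ((M.det.re : ℝ) : ℂ) = M.det := by
  have h1 : conj M.det = M.det := by
    have h2 := Matrix.det_conjTranspose M
    rw [h.eq] at h2
    exact h2.symm
  exact Complex.conj_eq_iff_re.1 h1

section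

variable {D : EffDiv X} {ι : Type} [Fintype ι] [DecidableEq ι] (B : DivLB D ι)

/-- the metric of the line bundle -/
def DivLB.h (x y : X) : ℝ := ‖B.v x y‖ ^ 2

theorem DivLB.isMetric : D.IsMetric B.h where
  smooth x y hy e he := (B.v_reg x y hy e he.1 he.2).norm_sq ℂ
  pos x y hy := by
    have := norm_pos_iff.2 (B.v_ne x y hy)
    exact pow_pos this 2
  change x x' y hy := by
    have h1 : ∀ x, y ∈ D.U x → ‖D.f x y‖ ^ 2 * B.h x y = ‖B.s y‖ ^ 2 := by
      intro x hx
      rw [B.s_eq x y hx, norm_smul, mul_pow]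
      rfl
    rw [h1 x hy.1, h1 x' hy.2]

theorem DivLB.s_eq_zero_iff {y : X} : B.s y = 0 ↔ y ∈ D.supp := by
  rw [B.s_eq y y (D.mem y), smul_eq_zero, or_iff_left (B.v_ne y y (D.mem y))]
  rfl

variable [IsManifold 𝓘(ℂ, C2) ω X]

theorem DivLB.chern_at (y : X) : (B.L.chern B.a).f20 y = 0 ∧
    (B.L.chern B.a).f11 y = -chH B.h (chartAt C2 y) (chartAt C2 y y) ∧
    (B.L.chern B.a).f02 y = 0 := by
  have hN := D.isOpen y
  have hF : ∀ z ∈ D.U y, FrameAt B.L B.a (B.v y) z := fun z hz => B.frameAt hz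
  obtain ⟨h1, h2, h3⟩ := frame_chern hN hF (D.mem y)
  refine ⟨h1, ?_, h3⟩
  rw [h2]
  congr 1
  ext i j
  rw [ddb_eq hN (D.mem y) (fun z hz => (hF z hz).sm_log),
    chH_eq B.isMetric (D.mem y) ⟨chart_mem_atlas C2 y, mem_chart_source C2 y⟩, cHess_eq_K]
  rfl

/-- the Chern form squared -/
def DivLB.cc (y : X) : ℂ := (B.L.chern B.a).wedge (B.L.chern B.a) y

theorem DivLB.cc_eq (y : X) : B.cc y = -2 * (chH B.h (chartAt C2 y) (chartAt C2 y y)).det := by
  obtain ⟨h1, h2, h3⟩ := B.chern_at y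
  unfold DivLB.cc TwoF.wedge
  rw [h1, h3, h2, Matrix.det_fin_two]
  simp only [Matrix.neg_apply]
  ring

theorem DivLB.loc2_cc {e : Ch X} (he : e ∈ atlas C2 X) {z : C2} (hz : z ∈ e.target) :
    loc2 1 e B.cc z = -2 * (((chH B.h e z).det.re : ℝ) : ℂ) := by
  obtain ⟨y, hy, rfl⟩ : ∃ y ∈ e.source, e y = z := ⟨e.symm z, e.map_target hz, e.right_inv hz⟩
  have hA : P272.K.At e y := ⟨he, hy⟩
  have hA' : P272.K.At (chartAt C2 y) y := ⟨chart_mem_atlas C2 y, mem_chart_source C2 y⟩
  have h1 := P272.K.det_form (isClosedForm_chH B.isMetric).form hA hA'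
  have hH : (chH B.h e (e y)).IsHermitian := by
    rw [chH_eq B.isMetric (D.mem y) hA]
    exact P272.K.cHess_isHermitian ((IsMetric.log_contDiffAt B.isMetric (D.mem y) hA).of_le
      P272.K.INT.two_le_inf)
  rw [loc2_source hy, det_im_zero hH, h1, B.cc_eq, jacM_eq_K]
  have h2 : jac e y = FL.jacM e (chartAt C2 y) y := rfl
  rw [h2, zpow_one, smul_eq_mul, smul_eq_mul]
  have h3 : ((‖(FL.jacM e (chartAt C2 y) y).det‖ ^ 2 : ℝ) : ℂ) =
      (FL.jacM e (chartAt C2 y) y).det * conj (FL.jacM e (chartAt C2 y) y).det := by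
    rw [Complex.mul_conj, Complex.normSq_eq_norm_sq]
  rw [h3]
  ring

theorem DivLB.reg_cc : Reg2 0 1 B.cc := by
  intro e he
  have h1 : ContDiffOn ℝ 0 (fun z => -2 * (((chH B.h e z).det.re : ℝ) : ℂ)) e.target := by
    rw [contDiffOn_zero]
    have h2 := (isClosedForm_chH B.isMetric).isDensity.continuousOn he
    exact continuousOn_const.mul (Complex.continuous_ofReal.comp_continuousOn h2)
  exact h1.congr fun z hz => B.loc2_cc he hz

variable [T2Space X] [CompactSpace X]

theorem DivLB.hasInt_cc : HasInt B.cc (FL.intX B.cc) :=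
  hasInt_intX B.reg_cc (HasCompactSupport.of_compactSpace _)

/-- integral of the square of the Chern form = `-4π²` times the self-intersection -/
theorem DivLB.intX_cc : FL.intX B.cc = ((-(4 * Real.pi ^ 2) * dsq B.h : ℝ) : ℂ) := by
  have hd := (isDensity_c1 B.isMetric).isIntegral
  -- a partition of unity
  have h1 := hd (P272.K.INT.part 2 X).N (P272.K.INT.part 2 X).e (P272.K.INT.part 2 X).ρ
    (P272.K.INT.part 2 X).mem (P272.K.INT.part 2 X).cont (P272.K.INT.part 2 X).supp
    (P272.K.INT.part 2 X).sum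
  have h2 := B.hasInt_cc (P272.K.INT.part 2 X).N (P272.K.INT.part 2 X).e
    (P272.K.INT.part 2 X).ρ (P272.K.INT.part 2 X).mem (P272.K.INT.part 2 X).cont
    (fun i => HasCompactSupport.of_compactSpace _) (P272.K.INT.part 2 X).supp
    (fun x _ => (P272.K.INT.part 2 X).sum x)
  rw [← h2]
  change _ = ((-(4 * Real.pi ^ 2) * P272.K.INT.intX (fun (e : P272.K.Chart 2 X)
    (z : P272.K.Cm 2) => 2 / Real.pi ^ 2 * (chH B.h e z).det.re) : ℝ) : ℂ)
  rw [← h1, Finset.mul_sum, Complex.ofReal_sum]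
  refine Finset.sum_congr rfl fun i _ => ?_
  rw [← integral_const_mul, ← integral_complex_ofReal]
  refine setIntegral_congr_fun ((P272.K.INT.part 2 X).e i).open_target.measurableSet
    fun z hz => ?_
  simp only
  rw [B.loc2_cc ((P272.K.INT.part 2 X).mem i) hz]
  have hpi : (Real.pi : ℂ) ≠ 0 := Complex.ofReal_ne_zero.2 Real.pi_ne_zero
  push_cast
  field_simp

/-- **SelfInt bridge** -/
theorem DivLB.selfInt_iff {d : ℝ} :
    D.SelfInt d ↔ FL.intX B.cc = ((-(4 * Real.pi ^ 2) * d : ℝ) : ℂ) := by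
  rw [Vale.Agent.P267.H451.selfInt_iff B.isMetric, B.intX_cc]
  constructor
  · intro h
    rw [h]
  · intro h
    have h1 := Complex.ofReal_injective h
    have h2 : -(4 * Real.pi ^ 2) ≠ 0 := by
      have := Real.pi_pos
      nlinarith [sq_pos_of_pos this]
    exact mul_left_cancel₀ h2 h1

end

/-- every effective divisor on a compact surface has a self-intersection number -/
theorem exists_selfInt [IsManifold 𝓘(ℂ, C2) ω X] [T2Space X] [CompactSpace X] (D : EffDiv X) :
    ∃ d : ℝ, D.SelfInt d := by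
  obtain ⟨N, ⟨B⟩⟩ := exists_divLB D
  exact ⟨dsq B.h, (Vale.Agent.P267.H451.selfInt_iff B.isMetric).2 rfl⟩

end Vale.Agent.P267.H451
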